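import Vale.Agent.P271.Grow.GrowProp
import Vale.Agent.P271.H58.Geo
import Vale.Agent.P271.H112.ToPtData
import Vale.Agent.P271.Gen.HomFinal

/-!
# P271 / GROW (c): the growth inequality for a graded cone
-/

set_option linter.all false

open Finset Filter Topology Module

namespace Vale.Agent.P271.Grow

open MvPowerSeries Vale.Agent.P271.Sch Vale.Agent.P271.Ver Vale.Agent.P271.Drop
  Vale.Agent.P271.Deg Vale.Agent.P271.Main Vale.Agent.P271.H58 Vale.Agent.P271.H70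
  Vale.Agent.P271.Gen Vale.Agent.P271.H112 Vale.Agent.P271.H207 Vale.Agent.P271.Filt

variable {n : ℕ} {C : GCone n} {z : C.Pt} {m1 : ℕ}

/-- the Taylor expansion at a general point of the cone -/
theorem exists_tau (h : VerOK C.A m1) (hz : GCone.NV z) :
    ∃ (r₁ : ℕ) (τ : C.R →ₐ[ℂ] MvPowerSeries (Fin n) ℂ),
      (∀ M, ∀ s ∈ C.A M, τ s = 0 → s = 0) ∧
      ∀ M, r₁ ≤ M → ∀ ε : Fin n → ℕ, (∀ j, ε j ≤ 1) → ∃ g ∈ C.A M, IsLead1 (τ g) ε := by
  haveI := C.finiteType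
  haveI hbot : (⊥ : Ideal C.R).IsPrime := Ideal.isPrime_bot
  obtain ⟨M0, e, he, e', he', h1, h2⟩ := exists_pair z hz
  obtain ⟨d, ℓ, hℓ, hTS⟩ := pd' h hz (hprime_bot (z := z))
  have hD : 1 ≤ ℓ * m1 ^ d := Nat.mul_pos hℓ (pow_pos h.pos _)
  obtain rfl : d = n := pd_bot h hz hD hTS
  have htr : Algebra.trdeg ℂ (C.R ⧸ (⊥ : Ideal C.R)) = ((d + 1 : ℕ) : Cardinal) :=
    trdeg_of_verOK C.A h (Ideal.IsHomogeneous.bot C.A) (rel h hz (z := z) bot_le) hD hTS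
  obtain ⟨N, g, r, hg, hg0, H⟩ := exists_general_point_hom C.A (⊥ : Ideal C.R)
    (Ideal.IsHomogeneous.bot C.A) he he'
    (fun h0 => h1 (by rw [(Submodule.mem_bot _).1 h0, map_zero]))
    (fun h0 => h2 (by rw [(Submodule.mem_bot _).1 h0, map_zero])) htr (ι := Unit) ∅
    (fun _ => ⊥) (fun _ => ⊥) (by simp) (by simp) (by simp) (by simp)
  obtain ⟨φ, -, hφg⟩ := exists_pt hbot hg0
  obtain ⟨X, τ, -, hpt, -⟩ := H φ (fun p hp => by rw [(Submodule.mem_bot _).1 hp, map_zero]) hφg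
  obtain ⟨r₁, hr⟩ := cone_lead_hom C d
  refine ⟨r₁, τ, fun M s hs h0 => (Submodule.mem_bot _).1 ((hpt.ker_iff M s hs).1 h0),
    fun M hM ε hε => ?_⟩
  have h0 : constantCoeff (τ e') ≠ 0 := by
    rw [hpt.const _ e' he']
    exact mul_ne_zero (pow_ne_zero _ (div_ne_zero hpt.φe hpt.φe')) hpt.φe'
  obtain ⟨m, hm⟩ := hpt.X_mem
  obtain ⟨L, hL⟩ := hpt.tau_X
  exact hr d τ M0 e e' he he' h0 hpt.tau_e X (fun j => ⟨m, hm j⟩) (fun j => ⟨L, hL j⟩) M hM ε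
    (deg_le_of_le_one hε)

/-- **The growth inequality for a graded cone.** -/
theorem growOk_cone (h : VerOK C.A m1) (hz : GCone.NV z) (hn : 1 ≤ n) :
    ∃ r₁ : ℕ, ∀ r, r₁ ≤ r → ∀ I : ℕ → Submodule ℂ C.R, (∀ M, I M ≤ C.A (m1 * M)) →
      (∀ M M' : ℕ, ∀ g ∈ C.A (m1 * M'), ∀ s ∈ I M, g * s ∈ I (M + M')) →
      GrowOk n (fun M => finrank ℂ (C.A (m1 * M))) r (fun M => finrank ℂ (I M)) := by
  obtain ⟨r₁, τ, hτ, hcube⟩ := exists_tau h hz
  refine ⟨r₁, fun r hr I hI hmul => ?_⟩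
  haveI : ∀ M, FiniteDimensional ℂ (C.A (m1 * M)) := fun M => h.fin _
  refine growOk_ring (V := fun M => C.A (m1 * M)) hn τ I hI (fun M => hτ _) hmul r
    (hcube (m1 * r) ?_)
  exact hr.trans (Nat.le_mul_of_pos_left _ h.pos)

/-- **The growth inequality for the filtrations of a graded cone**, the family
`M ↦ dim F_{≥ t} C.A (m1 M)` for multiplicative filtrations with weights `≥ 0`. -/
theorem growOk_wt (h : VerOK C.A m1) (hz : GCone.NV z) (hn : 1 ≤ n) :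
    ∃ r₁ : ℕ, ∀ r, r₁ ≤ r → ∀ F : ∀ M, Wt ℂ (C.A (m1 * M)),
      (∀ (M M' : ℕ) (g : C.A (m1 * M')) (s : C.A (m1 * M)) (t : C.A (m1 * (M + M'))),
        (t : C.R) = g * s → g ≠ 0 → s ≠ 0 → (F M).w s ≤ (F (M + M')).w t) →
      ∀ t : ℝ, GrowOk n (fun M => finrank ℂ (C.A (m1 * M))) r
        (fun M => finrank ℂ ((F M).sub t)) := by
  obtain ⟨r₁, hr₁⟩ := growOk_cone h hz hn
  refine ⟨r₁, fun r hr F hF t => ?_⟩
  have h1 := hr₁ r hr (fun M => ((F M).sub t).map (C.A (m1 * M)).subtype)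
    (fun M => Submodule.map_subtype_le _ _) ?_
  · have h2 : (fun M => finrank ℂ (((F M).sub t).map (C.A (m1 * M)).subtype)) =
        fun M => finrank ℂ ((F M).sub t) := by
      funext M
      exact Submodule.finrank_map_subtype_eq _ _
    rw [h2] at h1
    exact h1
  · rintro M M' g hg _ ⟨s, hs, rfl⟩
    have hmem : g * (s : C.R) ∈ C.A (m1 * (M + M')) := by
      have h3 := SetLike.mul_mem_graded hg s.2
      have e1 : m1 * M' + m1 * M = m1 * (M + M') := by ring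
      rwa [e1] at h3
    refine ⟨⟨g * (s : C.R), hmem⟩, ?_, rfl⟩
    intro h0
    have hs0 : s ≠ 0 := by
      rintro rfl
      apply h0
      exact Subtype.ext (by simp)
    have hg0 : (⟨g, hg⟩ : C.A (m1 * M')) ≠ 0 := by
      intro h3
      apply h0
      have h4 : g = 0 := congrArg Subtype.val h3
      exact Subtype.ext (by simp [h4])
    exact le_trans (((F M).mem_sub_of_ne hs0).1 hs) (hF M M' ⟨g, hg⟩ s _ rfl hg0 hs0)

/-- The same for multiplicative families, in the form of `H177.W`. -/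
theorem growOk_VA (h : VerOK C.A m1) (hz : GCone.NV z) (hn : 1 ≤ n) :
    ∃ r₁ : ℕ, ∀ r, r₁ ≤ r → ∀ F : ∀ M, Wt ℂ (VA C m1 M),
      (∀ (M M' : ℕ) (g : VA C m1 M') (s : VA C m1 M) (t : VA C m1 (M + M')),
        (t : C.R) = g * s → g ≠ 0 → s ≠ 0 → (F (M + M')).w t = (F M).w s + (F M').w g) →
      (∀ (M : ℕ) (x : VA C m1 M), x ≠ 0 → 0 ≤ (F M).w x) →
      ∀ t : ℝ, GrowOk n (fun M => finrank ℂ (VA C m1 M)) r
        (fun M => finrank ℂ ((F M).sub t)) := by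
  obtain ⟨r₁, hr₁⟩ := growOk_wt h hz hn
  refine ⟨r₁, fun r hr F hF h0 t => hr₁ r hr F (fun M M' g s t ht hg hs => ?_) t⟩
  rw [hF M M' g s t ht hg hs]
  exact le_add_of_nonneg_right (h0 M' g hg)

end Vale.Agent.P271.Grow
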