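import Mathlib

/-!
# P271 / GROW (b): the numbers

`N M ~ v₀ M ^ n`, `i M ≤ N M` with the summed growth inequality of `Grow.grow_ring`.  Then
`(n+1) r₀ ∑ (N - i)(m - j ρ) ≥ m N_m (1 - x ^ (n+1) - ε)`, `x ^ n = i_m / N_m`, uniformly in `i`.
-/

set_option linter.all false

open Finset Filter Topology

namespace Vale.Agent.P271.Grow

lemma rpow_pow_inv {n : ℕ} (hn : 0 < n) {a : ℝ} (ha : 0 ≤ a) : (a ^ ((1 : ℝ) / n)) ^ n = a := by
  have hnR : (0 : ℝ) < n := by exact_mod_cast hn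
  rw [← Real.rpow_natCast, ← Real.rpow_mul ha]
  rw [one_div, inv_mul_cancel₀ hnR.ne', Real.rpow_one]

lemma le_of_pow_le {n : ℕ} (hn : 0 < n) {a b : ℝ} (ha : 0 ≤ a) (hb : 0 ≤ b)
    (h : a ^ n ≤ b ^ n) : a ≤ b := (pow_le_pow_iff_left₀ ha hb hn.ne').1 h

lemma pow_succ_add_le {y b : ℝ} (hy : 0 ≤ y) (hb : 0 ≤ b) (n : ℕ) :
    (y + b) ^ (n + 1) - y ^ (n + 1) ≤ (n + 1) * b * (y + b) ^ n := by
  induction n with
  | zero => simp
  | succ n ih =>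
    have h1 := mul_le_mul_of_nonneg_left ih (add_nonneg hy hb)
    have h2 : b * y ^ (n + 1) ≤ b * (y + b) ^ (n + 1) :=
      mul_le_mul_of_nonneg_left (pow_le_pow_left₀ hy (by linarith) _) hb
    have e1 : (y + b) ^ (n + 1 + 1) - y ^ (n + 1 + 1)
        = (y + b) * ((y + b) ^ (n + 1) - y ^ (n + 1)) + b * y ^ (n + 1) := by ring
    have e2 : ((n + 1 : ℕ) + 1 : ℝ) * b * (y + b) ^ (n + 1)
        = (y + b) * ((n + 1) * b * (y + b) ^ n) + b * (y + b) ^ (n + 1) := by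
      push_cast
      ring
    rw [e1, e2]
    linarith

/-- Riemann sum from below -/
lemma sum_pow_ge (n ρ m : ℕ) : ∀ K, (K + 1) * ρ ≤ m →
    ((m : ℝ) - ρ) ^ (n + 1) - ((m : ℝ) - (K + 1) * ρ) ^ (n + 1) ≤
      (n + 1 : ℝ) * ρ * ∑ j ∈ range K, (((m - (j + 1) * ρ : ℕ) : ℝ)) ^ n := by
  intro K
  induction K with
  | zero => intro _; simp
  | succ K ih =>
    intro hK
    have hK' : (K + 1) * ρ ≤ m := le_trans (Nat.mul_le_mul_right _ (by omega)) hK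
    have h1 := ih hK'
    rw [Finset.sum_range_succ, mul_add]
    have hc : ((m - (K + 1) * ρ : ℕ) : ℝ) = (m : ℝ) - (K + 1) * ρ := by
      rw [Nat.cast_sub hK']
      push_cast
      ring
    have hKR : ((K : ℝ) + 1 + 1) * ρ ≤ m := by exact_mod_cast hK
    have h2 := pow_succ_add_le (y := (m : ℝ) - (K + 1 + 1) * ρ) (b := ρ) (by linarith)
      (Nat.cast_nonneg ρ) n
    have e1 : (m : ℝ) - (K + 1 + 1) * ρ + ρ = (m : ℝ) - (K + 1) * ρ := by ring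
    rw [e1] at h2
    rw [hc]
    push_cast
    linarith

/-- the sum of `N` over an arithmetic progression -/
lemma sum_N_ge {n : ℕ} (hn : 0 < n) {N : ℕ → ℕ} {v0 : ℝ} (hv0 : 0 < v0)
    (hN : Tendsto (fun M : ℕ => (N M : ℝ) / (M : ℝ) ^ n) atTop (𝓝 v0)) {ρ : ℕ} (hρ : 0 < ρ)
    {η : ℝ} (hη : 0 < η) (hη1 : η < 1) :
    ∃ m0 : ℕ, ∀ m : ℕ, m0 ≤ m → (1 - η) * v0 * (m : ℝ) ^ (n + 1) ≤
      (n + 1 : ℝ) * ((ρ : ℝ) * ∑ j ∈ range (m / ρ), ((N (m - (j + 1) * ρ) : ℕ) : ℝ)) := by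
  -- lower bound for all `M`
  have h1 : ∀ᶠ M : ℕ in atTop, (1 - η / 3) * v0 < (N M : ℝ) / (M : ℝ) ^ n :=
    hN.eventually_const_lt (by nlinarith)
  obtain ⟨M1, hM1⟩ := eventually_atTop.1 h1
  set C : ℝ := v0 * (M1 : ℝ) ^ n with hC
  have hC0 : 0 ≤ C := by positivity
  have hlow : ∀ M : ℕ, (1 - η / 3) * v0 * (M : ℝ) ^ n - C ≤ N M := by
    intro M
    have hN0 : (0 : ℝ) ≤ N M := Nat.cast_nonneg _
    rcases Nat.eq_zero_or_pos M with rfl | hMpos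
    · simp only [Nat.cast_zero, zero_pow hn.ne', mul_zero]
      linarith
    by_cases hM : M1 ≤ M
    · have h2 := hM1 M hM
      have hMp : (0 : ℝ) < (M : ℝ) ^ n := by
        have : (0 : ℝ) < M := by exact_mod_cast hMpos
        positivity
      rw [lt_div_iff₀ hMp] at h2
      linarith
    · have h3 : (M : ℝ) ^ n ≤ (M1 : ℝ) ^ n := by
        have : M ≤ M1 := by omega
        gcongr
      have h4 : (1 - η / 3) * v0 * (M : ℝ) ^ n ≤ 1 * v0 * (M1 : ℝ) ^ n := by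
        apply mul_le_mul _ h3 (by positivity) (by positivity)
        apply mul_le_mul_of_nonneg_right _ hv0.le
        linarith
      rw [hC]
      linarith
  -- asymptotics of the Riemann sum
  have hlim1 : Tendsto (fun m : ℕ => ((m : ℝ) - ρ) ^ (n + 1) / (m : ℝ) ^ (n + 1)) atTop (𝓝 1) := by
    have h2 : Tendsto (fun m : ℕ => 1 - (ρ : ℝ) / (m : ℝ)) atTop (𝓝 (1 - 0)) :=
      tendsto_const_nhds.sub (tendsto_const_div_atTop_nhds_zero_nat _)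
    have h3 := h2.pow (n + 1)
    rw [sub_zero, one_pow] at h3
    refine h3.congr' ?_
    filter_upwards [eventually_ge_atTop 1] with m hm
    have : (m : ℝ) ≠ 0 := by
      have : (0 : ℝ) < m := by exact_mod_cast hm
      exact this.ne'
    rw [← div_pow]
    congr 1
    field_simp
  have hlim2 : Tendsto (fun m : ℕ => (m : ℝ) ^ n) atTop atTop :=
    (tendsto_pow_atTop hn.ne').comp tendsto_natCast_atTop_atTop
  have hev1 : ∀ᶠ m : ℕ in atTop, 1 - η / 6 < ((m : ℝ) - ρ) ^ (n + 1) / (m : ℝ) ^ (n + 1) :=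
    hlim1.eventually_const_lt (by linarith)
  have hev2 : ∀ᶠ m : ℕ in atTop, (6 * (ρ : ℝ) ^ (n + 1) / η + 3 * (n + 1) * C / (η * v0)) ≤
      (m : ℝ) ^ n := hlim2.eventually_ge_atTop _
  obtain ⟨m0, hm0⟩ := eventually_atTop.1 (hev1.and (hev2.and (eventually_ge_atTop (ρ + 1))))
  refine ⟨m0, fun m hm => ?_⟩
  obtain ⟨he1, he2, he3⟩ := hm0 m hm
  have hmpos : (0 : ℝ) < m := by
    have : 0 < m := by omega
    exact_mod_cast this
  have hm1 : (1 : ℝ) ≤ m := by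
    have : 1 ≤ m := by omega
    exact_mod_cast this
  have hρR : (0 : ℝ) < ρ := by exact_mod_cast hρ
  set K := m / ρ with hK
  have hKρ : K * ρ ≤ m := Nat.div_mul_le_self _ _
  have hK1 : 1 ≤ K := (Nat.le_div_iff_mul_le hρ).2 (by omega)
  obtain ⟨K', hK'⟩ : ∃ K', K = K' + 1 := ⟨K - 1, by omega⟩
  -- Riemann sum
  have hR := sum_pow_ge n ρ m K' (by rw [← hK']; exact hKρ)
  have hrem : (m : ℝ) - (K' + 1) * ρ ≤ ρ := by
    have h5 : m < (K + 1) * ρ := by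
      have h6 := Nat.div_add_mod m ρ
      have h7 := Nat.mod_lt m hρ
      have h8 : ρ * (m / ρ) = K * ρ := by rw [hK]; ring
      rw [Nat.succ_mul]
      omega
    have h6 : (m : ℝ) < ((K' : ℝ) + 1 + 1) * ρ := by
      rw [hK'] at h5
      exact_mod_cast h5
    linarith
  have hrem0 : 0 ≤ (m : ℝ) - (K' + 1) * ρ := by
    have h6 : (((K' : ℝ) + 1) * ρ) ≤ m := by
      rw [hK'] at hKρ
      exact_mod_cast hKρ
    linarith
  have hremp : ((m : ℝ) - (K' + 1) * ρ) ^ (n + 1) ≤ (ρ : ℝ) ^ (n + 1) :=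
    pow_le_pow_left₀ hrem0 hrem _
  -- lower bound for the sum of `N`
  have hsum : (1 - η / 3) * v0 * ∑ j ∈ range K', (((m - (j + 1) * ρ : ℕ) : ℝ)) ^ n - K * C ≤
      ∑ j ∈ range K, ((N (m - (j + 1) * ρ) : ℕ) : ℝ) := by
    have h5 : ∑ j ∈ range K, ((1 - η / 3) * v0 * (((m - (j + 1) * ρ : ℕ) : ℝ)) ^ n - C) ≤
        ∑ j ∈ range K, ((N (m - (j + 1) * ρ) : ℕ) : ℝ) :=
      Finset.sum_le_sum (fun j _ => hlow _)
    rw [Finset.sum_sub_distrib, ← Finset.mul_sum, Finset.sum_const, card_range, nsmul_eq_mul] at h5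
    refine le_trans ?_ h5
    apply sub_le_sub_right
    apply mul_le_mul_of_nonneg_left _ (mul_nonneg (by linarith) hv0.le)
    rw [hK', Finset.sum_range_succ]
    have : (0 : ℝ) ≤ (((m - (K' + 1) * ρ : ℕ) : ℝ)) ^ n := by positivity
    linarith
  have hKm : (ρ : ℝ) * K ≤ m := by
    have : ρ * K ≤ m := by rw [mul_comm]; exact hKρ
    exact_mod_cast this
  rw [lt_div_iff₀ (by positivity)] at he1
  have hmn : (m : ℝ) ^ (n + 1) = (m : ℝ) ^ n * m := pow_succ _ _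
  -- combine
  have hA : (1 - η / 3) * (m : ℝ) ^ (n + 1) ≤
      (n + 1 : ℝ) * ρ * ∑ j ∈ range K', (((m - (j + 1) * ρ : ℕ) : ℝ)) ^ n := by
    have h6 : (ρ : ℝ) ^ (n + 1) ≤ η / 6 * (m : ℝ) ^ (n + 1) := by
      have h7 : 6 * (ρ : ℝ) ^ (n + 1) / η ≤ (m : ℝ) ^ n := by
        refine le_trans ?_ he2
        have : 0 ≤ 3 * ((n : ℝ) + 1) * C / (η * v0) := by positivity
        linarith
      rw [div_le_iff₀ hη] at h7
      have h8 : (m : ℝ) ^ n ≤ (m : ℝ) ^ (n + 1) := by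
        rw [hmn]
        exact le_mul_of_one_le_right (by positivity) hm1
      nlinarith
    linarith
  have hB : (n + 1 : ℝ) * (m * C) ≤ η / 3 * v0 * (m : ℝ) ^ (n + 1) := by
    have h7 : 3 * ((n : ℝ) + 1) * C / (η * v0) ≤ (m : ℝ) ^ n := by
      refine le_trans ?_ he2
      have : 0 ≤ 6 * (ρ : ℝ) ^ (n + 1) / η := by positivity
      linarith
    rw [div_le_iff₀ (by positivity)] at h7
    rw [hmn]
    nlinarith
  have hCK : (n + 1 : ℝ) * (ρ * (K * C)) ≤ (n + 1 : ℝ) * (m * C) := by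
    have : (ρ : ℝ) * (K * C) ≤ m * C := by
      rw [← mul_assoc]
      exact mul_le_mul_of_nonneg_right hKm hC0
    exact mul_le_mul_of_nonneg_left this (by positivity)
  have hD := mul_le_mul_of_nonneg_left hsum (show (0 : ℝ) ≤ (n + 1) * ρ by positivity)
  have hE := mul_le_mul_of_nonneg_left hA (show (0 : ℝ) ≤ (1 - η / 3) * v0 from
    mul_nonneg (by linarith) hv0.le)
  have hF : (1 - η) * v0 * (m : ℝ) ^ (n + 1) ≤ (1 - η / 3) * v0 * ((1 - η / 3) * (m : ℝ) ^ (n + 1))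
      - η / 3 * v0 * (m : ℝ) ^ (n + 1) := by
    have h8 : 0 ≤ η ^ 2 / 9 * (v0 * (m : ℝ) ^ (n + 1)) := by positivity
    have e1 : (1 - η / 3) * v0 * ((1 - η / 3) * (m : ℝ) ^ (n + 1))
      - η / 3 * v0 * (m : ℝ) ^ (n + 1)
      = (1 - η) * v0 * (m : ℝ) ^ (n + 1) + η ^ 2 / 9 * (v0 * (m : ℝ) ^ (n + 1)) := by ring
    rw [e1]
    linarith
  calc (1 - η) * v0 * (m : ℝ) ^ (n + 1) ≤ _ := hF
    _ ≤ (1 - η / 3) * v0 * ((n + 1 : ℝ) * ρ *
          ∑ j ∈ range K', (((m - (j + 1) * ρ : ℕ) : ℝ)) ^ n) - (n + 1 : ℝ) * (ρ * (K * C)) := by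
        linarith
    _ = (n + 1 : ℝ) * ρ * ((1 - η / 3) * v0 *
          ∑ j ∈ range K', (((m - (j + 1) * ρ : ℕ) : ℝ)) ^ n - K * C) := by ring
    _ ≤ (n + 1 : ℝ) * ρ * ∑ j ∈ range K, ((N (m - (j + 1) * ρ) : ℕ) : ℝ) := hD
    _ = _ := by ring

lemma numA {η T Z S ρ r : ℝ} (hη0 : 0 < η) (hη1 : η < 1 / 16) (hT : 0 ≤ T) (hS : 0 ≤ S)
    (h1 : T ≤ (1 + η) * Z) (h2 : (1 - η) * Z ≤ ρ * S) (h3 : ρ ≤ (1 + η) * r) :
    (1 - 3 * η) * T ≤ r * S := by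
  have h4 : ρ * S ≤ (1 + η) * (r * S) := by
    have := mul_le_mul_of_nonneg_right h3 hS
    linarith
  have h5 : (1 - η) * T ≤ (1 + η) * ((1 + η) * (r * S)) := by
    calc (1 - η) * T ≤ (1 - η) * ((1 + η) * Z) := mul_le_mul_of_nonneg_left h1 (by linarith)
      _ = (1 + η) * ((1 - η) * Z) := by ring
      _ ≤ (1 + η) * ((1 + η) * (r * S)) :=
          mul_le_mul_of_nonneg_left (h2.trans h4) (by linarith)
  have h7 : (1 - 3 * η) * ((1 + η) * (1 + η)) ≤ 1 - η := by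
    have e : (1 - η) - (1 - 3 * η) * ((1 + η) * (1 + η)) = 5 * η ^ 2 + 3 * η ^ 3 := by ring
    have : 0 ≤ 5 * η ^ 2 + 3 * η ^ 3 := by positivity
    linarith
  have h8 : (1 - 3 * η) * T * ((1 + η) * (1 + η)) ≤ (r * S) * ((1 + η) * (1 + η)) := by
    calc (1 - 3 * η) * T * ((1 + η) * (1 + η))
        = ((1 - 3 * η) * ((1 + η) * (1 + η))) * T := by ring
      _ ≤ (1 - η) * T := mul_le_mul_of_nonneg_right h7 hT
      _ ≤ _ := h5
      _ = _ := by ring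
  exact le_of_mul_le_mul_right h8 (by positivity)

lemma numB {η T W z : ℝ} (hη0 : 0 < η) (hη1 : η < 1 / 16) (hT : 0 ≤ T) (hz0 : 0 ≤ z)
    (hz1 : z ≤ 1) (h : (1 - η) * W ≤ z * ((1 + η) * T)) : W ≤ (z + 4 * η) * T := by
  have h7 : z * (1 + η) ≤ (z + 4 * η) * (1 - η) := by
    have e : (z + 4 * η) * (1 - η) - z * (1 + η) = 2 * η * (2 - z - 2 * η) := by ring
    have : 0 ≤ 2 * η * (2 - z - 2 * η) := mul_nonneg (by linarith) (by linarith)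
    linarith
  have h8 : W * (1 - η) ≤ (z + 4 * η) * T * (1 - η) := by
    calc W * (1 - η) = (1 - η) * W := by ring
      _ ≤ _ := h
      _ = (z * (1 + η)) * T := by ring
      _ ≤ ((z + 4 * η) * (1 - η)) * T := mul_le_mul_of_nonneg_right h7 hT
      _ = _ := by ring
  exact le_of_mul_le_mul_right h8 (by linarith)

lemma roots {n : ℕ} (hn : 0 < n) {v v0 η a M : ℝ} (hη0 : 0 < η) (hη1 : η < 1 / 16)
    (hv : 0 < v) (hvn : v ^ n = v0) (ha0 : 0 ≤ a) (hM : 0 ≤ M)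
    (ha : (1 - η) * v0 * M ^ n ≤ a) (hb : a ≤ (1 + η) * v0 * M ^ n) :
    (1 - η) * v * M ≤ a ^ ((1 : ℝ) / n) ∧ a ^ ((1 : ℝ) / n) ≤ (1 + η) * v * M := by
  have hNn : (a ^ ((1 : ℝ) / n)) ^ n = a := rpow_pow_inv hn ha0
  have hr0 : 0 ≤ a ^ ((1 : ℝ) / n) := by positivity
  have hv0 : 0 < v0 := by rw [← hvn]; positivity
  have hη2 : 0 ≤ 1 - η := by linarith
  constructor
  · apply le_of_pow_le hn (by positivity) hr0
    rw [hNn, mul_pow, mul_pow, hvn]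
    refine le_trans ?_ ha
    apply mul_le_mul_of_nonneg_right _ (by positivity)
    apply mul_le_mul_of_nonneg_right _ hv0.le
    exact pow_le_of_le_one (by linarith) (by linarith) hn.ne'
  · apply le_of_pow_le hn hr0 (by positivity)
    rw [hNn, mul_pow, mul_pow, hvn]
    refine le_trans hb ?_
    apply mul_le_mul_of_nonneg_right _ (by positivity)
    apply mul_le_mul_of_nonneg_right _ hv0.le
    exact le_self_pow₀ (by linarith) hn.ne'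

lemma numC {n : ℕ} (hn : 0 < n) {η v r m b Nm im x S : ℝ} (hη0 : 0 < η) (hη1 : η < 1 / 16)
    (hv : 0 < v) (hm : 0 ≤ m) (hr : 0 ≤ r) (hNm : 0 ≤ Nm) (him : 0 ≤ im) (hx0 : 0 ≤ x)
    (hx1 : x ≤ 1) (hxi : x ^ n * Nm = im) (hS : 0 ≤ S) (hb : (1 - η) * v * r ≤ b)
    (hY : Nm ^ ((1 : ℝ) / n) ≤ (1 + η) * v * m)
    (hgrow : b * S ≤ (im ^ ((1 : ℝ) / n)) ^ (n + 1)) :
    r * S ≤ (x ^ (n + 1) + 4 * η) * (m * Nm) := by
  set Y : ℝ := Nm ^ ((1 : ℝ) / n) with hYdef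
  have hY0 : 0 ≤ Y := by positivity
  have hYn : Y ^ n = Nm := rpow_pow_inv hn hNm
  have hi : im ^ ((1 : ℝ) / n) = x * Y := by
    have h3 : (im ^ ((1 : ℝ) / n)) ^ n = (x * Y) ^ n := by
      rw [rpow_pow_inv hn him, mul_pow, hYn, hxi]
    exact (pow_left_inj₀ (by positivity) (mul_nonneg hx0 hY0) hn.ne').1 h3
  have h3 : (x * Y) ^ (n + 1) = x ^ (n + 1) * (Nm * Y) := by
    rw [mul_pow, pow_succ Y n, hYn]
  rw [hi, h3] at hgrow
  have hx3 : 0 ≤ x ^ (n + 1) := by positivity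
  have hx2 : x ^ (n + 1) ≤ 1 := pow_le_one₀ hx0 hx1
  apply numB hη0 hη1 (by positivity) hx3 hx2
  have h6 : v * ((1 - η) * (r * S)) ≤ v * (x ^ (n + 1) * ((1 + η) * (m * Nm))) := by
    calc v * ((1 - η) * (r * S)) = ((1 - η) * v * r) * S := by ring
      _ ≤ b * S := mul_le_mul_of_nonneg_right hb hS
      _ ≤ x ^ (n + 1) * (Nm * Y) := hgrow
      _ ≤ x ^ (n + 1) * (Nm * ((1 + η) * v * m)) :=
          mul_le_mul_of_nonneg_left (mul_le_mul_of_nonneg_left hY hNm) hx3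
      _ = _ := by ring
  exact le_of_mul_le_mul_left h6 hv

/-- **The growth inequality in numbers.** -/
theorem grow_num {n : ℕ} (hn : 0 < n) {N : ℕ → ℕ} {v0 : ℝ} (hv0 : 0 < v0)
    (hN : Tendsto (fun M : ℕ => (N M : ℝ) / (M : ℝ) ^ n) atTop (𝓝 v0)) (r1 : ℕ)
    {ε : ℝ} (hε : 0 < ε) (hε1 : ε < 1) :
    ∃ R : ℕ, ∀ r0 : ℕ, R ≤ r0 → ∃ m0 : ℕ, ∀ m : ℕ, m0 ≤ m → ∀ (i : ℕ → ℕ) (x : ℝ),
      0 ≤ x → x ≤ 1 → x ^ n * N m = i m →
      (n + 1 : ℝ) * ((N r0 : ℝ) ^ ((1 : ℝ) / n)) *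
        ∑ j ∈ range (m / (r0 + r1)), ((i (m - (j + 1) * (r0 + r1)) : ℕ) : ℝ) ≤
        ((i m : ℝ) ^ ((1 : ℝ) / n)) ^ (n + 1) →
      (m : ℝ) * N m * (1 - x ^ (n + 1) - ε) ≤
        (n + 1 : ℝ) * ((r0 : ℝ) * ∑ j ∈ range (m / (r0 + r1)),
          (((N (m - (j + 1) * (r0 + r1)) : ℕ) : ℝ) - ((i (m - (j + 1) * (r0 + r1)) : ℕ) : ℝ))) := by
  set η : ℝ := ε / 17 with hη
  have hη0 : 0 < η := by positivity
  have hη1 : η < 1 / 16 := by rw [hη]; linarith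
  have h1 : ∀ᶠ M : ℕ in atTop, (1 - η) * v0 < (N M : ℝ) / (M : ℝ) ^ n :=
    hN.eventually_const_lt (by nlinarith)
  have h2 : ∀ᶠ M : ℕ in atTop, (N M : ℝ) / (M : ℝ) ^ n < (1 + η) * v0 :=
    hN.eventually_lt_const (by nlinarith)
  obtain ⟨M1, hM1⟩ := eventually_atTop.1 (h1.and (h2.and (eventually_ge_atTop 1)))
  set v : ℝ := v0 ^ ((1 : ℝ) / n) with hv
  have hv0' : 0 < v := Real.rpow_pos_of_pos hv0 _
  have hvn : v ^ n = v0 := rpow_pow_inv hn hv0.le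
  have hbound : ∀ M : ℕ, M1 ≤ M → (1 - η) * v0 * (M : ℝ) ^ n ≤ N M ∧
      (N M : ℝ) ≤ (1 + η) * v0 * (M : ℝ) ^ n := by
    intro M hM
    obtain ⟨ha, hb, hc⟩ := hM1 M hM
    have hMp : (0 : ℝ) < (M : ℝ) ^ n := by
      have : (0 : ℝ) < M := by exact_mod_cast hc
      positivity
    rw [lt_div_iff₀ hMp] at ha
    rw [div_lt_iff₀ hMp] at hb
    exact ⟨ha.le, hb.le⟩
  have hroot : ∀ M : ℕ, M1 ≤ M → (1 - η) * v * M ≤ (N M : ℝ) ^ ((1 : ℝ) / n) ∧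
      (N M : ℝ) ^ ((1 : ℝ) / n) ≤ (1 + η) * v * M := fun M hM =>
    roots hn hη0 hη1 hv0' hvn (Nat.cast_nonneg _) (Nat.cast_nonneg _) (hbound M hM).1
      (hbound M hM).2
  obtain ⟨R0, hR0⟩ := exists_nat_ge ((r1 : ℝ) / η)
  refine ⟨max (max M1 R0) 1, fun r0 hr0 => ?_⟩
  have hr0M : M1 ≤ r0 := le_trans (le_trans (le_max_left _ _) (le_max_left _ _)) hr0
  have hr0R : R0 ≤ r0 := le_trans (le_trans (le_max_right _ _) (le_max_left _ _)) hr0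
  have hr01 : 1 ≤ r0 := le_trans (le_max_right _ _) hr0
  have hr0pos : (0 : ℝ) < r0 := by exact_mod_cast hr01
  have hr1 : (r1 : ℝ) ≤ η * r0 := by
    have h3 : (r1 : ℝ) / η ≤ r0 := hR0.trans (by exact_mod_cast hr0R)
    rw [div_le_iff₀ hη0] at h3
    linarith
  obtain ⟨m0, hm0⟩ := sum_N_ge hn hv0 hN (ρ := r0 + r1) (by omega) hη0 (by linarith)
  refine ⟨max m0 (max M1 1), fun m hm i x hx0 hx1 hxi hgrow => ?_⟩
  have hmM : M1 ≤ m := le_trans (le_trans (le_max_left _ _) (le_max_right _ _)) hm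
  have hm1 : 1 ≤ m := le_trans (le_trans (le_max_right _ _) (le_max_right _ _)) hm
  have hmR : (0 : ℝ) < m := by exact_mod_cast hm1
  have hS := hm0 m (le_trans (le_max_left _ _) hm)
  obtain ⟨hNa, hNb⟩ := hbound m hmM
  set ρ := r0 + r1 with hρ
  set SN : ℝ := ∑ j ∈ range (m / ρ), ((N (m - (j + 1) * ρ) : ℕ) : ℝ) with hSN
  set Si : ℝ := ∑ j ∈ range (m / ρ), ((i (m - (j + 1) * ρ) : ℕ) : ℝ) with hSi
  have hSN0 : 0 ≤ SN := Finset.sum_nonneg fun _ _ => Nat.cast_nonneg _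
  have hSi0 : 0 ≤ Si := Finset.sum_nonneg fun _ _ => Nat.cast_nonneg _
  rw [Finset.sum_sub_distrib, ← hSN, ← hSi]
  have hNm0 : (0 : ℝ) ≤ N m := Nat.cast_nonneg _
  have h6 : 0 ≤ (m : ℝ) * N m := by positivity
  have hA : (1 - 3 * η) * (m * N m) ≤ r0 * ((n + 1 : ℝ) * SN) := by
    refine numA (Z := v0 * (m : ℝ) ^ (n + 1)) (ρ := (ρ : ℝ)) hη0 hη1 h6 (by positivity) ?_ ?_ ?_
    · have := mul_le_mul_of_nonneg_left hNb hmR.le
      calc (m : ℝ) * N m ≤ m * ((1 + η) * v0 * (m : ℝ) ^ n) := this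
        _ = _ := by rw [pow_succ]; ring
    · calc (1 - η) * (v0 * (m : ℝ) ^ (n + 1)) = (1 - η) * v0 * (m : ℝ) ^ (n + 1) := by ring
        _ ≤ _ := hS
        _ = _ := by ring
    · rw [hρ]; push_cast; linarith
  have hB : (r0 : ℝ) * ((n + 1 : ℝ) * Si) ≤ (x ^ (n + 1) + 4 * η) * (m * N m) := by
    refine numC hn hη0 hη1 hv0' hmR.le hr0pos.le hNm0 (Nat.cast_nonneg (i m)) hx0 hx1 hxi
      (by positivity) (hroot r0 hr0M).1 (hroot m hmM).2 ?_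
    calc (N r0 : ℝ) ^ ((1 : ℝ) / n) * ((n + 1 : ℝ) * Si)
        = (n + 1 : ℝ) * (N r0 : ℝ) ^ ((1 : ℝ) / n) * Si := by ring
      _ ≤ _ := hgrow
  have h9 : (m : ℝ) * N m * (1 - x ^ (n + 1) - ε) ≤
      (1 - 3 * η) * (m * N m) - (x ^ (n + 1) + 4 * η) * (m * N m) := by
    have e : (1 - 3 * η) * ((m : ℝ) * N m) - (x ^ (n + 1) + 4 * η) * (m * N m)
        - (m : ℝ) * N m * (1 - x ^ (n + 1) - ε) = (ε - 7 * η) * (m * N m) := by ring
    have h10 : 0 ≤ (ε - 7 * η) * ((m : ℝ) * N m) := by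
      apply mul_nonneg _ h6
      rw [hη]; linarith
    linarith
  calc (m : ℝ) * N m * (1 - x ^ (n + 1) - ε) ≤ _ := h9
    _ ≤ r0 * ((n + 1 : ℝ) * SN) - r0 * ((n + 1 : ℝ) * Si) := by linarith
    _ = _ := by ring

/-- Combination with the counting inequality: lower bound for the total order of vanishing `E` of
the pieces of weight below a threshold; `N m (1 - x ^ n)` is their dimension. -/
theorem grow_count {n d : ℕ} (hn : 0 < n) (hd : 0 < d) {N : ℕ → ℕ} {v0 : ℝ} (hv0 : 0 < v0)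
    (hN : Tendsto (fun M : ℕ => (N M : ℝ) / (M : ℝ) ^ n) atTop (𝓝 v0)) (r1 : ℕ)
    {ε : ℝ} (hε : 0 < ε) (hε1 : ε < 1) :
    ∃ R : ℕ, ∀ r0 : ℕ, R ≤ r0 → ∃ m0 : ℕ, ∀ m : ℕ, m0 ≤ m →
      ∀ (i : ℕ → ℕ) (x : ℝ) (NW : ℕ) (E : ℝ),
      (∀ M, M ≤ m → i M ≤ N M) → 0 ≤ x → x ≤ 1 → x ^ n * N m = i m →
      (n + 1 : ℝ) * ((N r0 : ℝ) ^ ((1 : ℝ) / n)) *
        ∑ j ∈ range (m / (r0 + r1)), ((i (m - (j + 1) * (r0 + r1)) : ℕ) : ℝ) ≤
        ((i m : ℝ) ^ ((1 : ℝ) / n)) ^ (n + 1) →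
      (((1 - ε) * r0) ^ d ≤ (d.factorial : ℝ) * NW) →
      (d : ℝ) * ((d.factorial : ℝ) ^ ((1 : ℝ) / d)) * ((NW : ℝ) ^ ((1 : ℝ) / d)) *
        ∑ j ∈ range (m / (r0 + r1)),
          (((N (m - (j + 1) * (r0 + r1)) : ℕ) : ℝ) - ((i (m - (j + 1) * (r0 + r1)) : ℕ) : ℝ))
        - (d + 1) * ((N m : ℝ) - i m) ≤ E →
      (d : ℝ) / (n + 1) * (m * N m) * (1 - x ^ (n + 1) - 3 * ε) ≤ E := by
  obtain ⟨R, hR⟩ := grow_num hn hv0 hN r1 hε hε1
  refine ⟨R, fun r0 hr0 => ?_⟩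
  obtain ⟨m0, hm0⟩ := hR r0 hr0
  obtain ⟨m1, hm1⟩ := exists_nat_ge ((n + 1 : ℝ) * (d + 1) / (d * ε))
  refine ⟨max m0 m1, fun m hm i x NW E hi hx0 hx1 hxi hgrow hNW hE => ?_⟩
  have hmain := hm0 m (le_trans (le_max_left _ _) hm) i x hx0 hx1 hxi hgrow
  have hdR : (0 : ℝ) < d := by exact_mod_cast hd
  have hmm : (n + 1 : ℝ) * (d + 1) ≤ m * (d * ε) := by
    have h1 : ((n + 1 : ℝ) * (d + 1) / (d * ε)) ≤ m :=
      hm1.trans (by exact_mod_cast le_trans (le_max_right _ _) hm)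
    rwa [div_le_iff₀ (by positivity)] at h1
  set S : ℝ := ∑ j ∈ range (m / (r0 + r1)),
    (((N (m - (j + 1) * (r0 + r1)) : ℕ) : ℝ) - ((i (m - (j + 1) * (r0 + r1)) : ℕ) : ℝ)) with hS
  have hS0 : 0 ≤ S := by
    refine Finset.sum_nonneg fun j _ => ?_
    have := hi (m - (j + 1) * (r0 + r1)) (Nat.sub_le _ _)
    have h2 : ((i (m - (j + 1) * (r0 + r1)) : ℕ) : ℝ) ≤ ((N (m - (j + 1) * (r0 + r1)) : ℕ) : ℝ) := by
      exact_mod_cast this
    linarith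
  -- the constant
  set c : ℝ := ((d.factorial : ℝ) ^ ((1 : ℝ) / d)) * ((NW : ℝ) ^ ((1 : ℝ) / d)) with hc
  have hc0 : 0 ≤ c := by positivity
  have hcr : (1 - ε) * r0 ≤ c := by
    have hcd : c ^ d = (d.factorial : ℝ) * NW := by
      rw [hc, mul_pow, rpow_pow_inv hd (by positivity), rpow_pow_inv hd (Nat.cast_nonneg _)]
    apply le_of_pow_le hd (mul_nonneg (by linarith) (Nat.cast_nonneg _)) hc0
    rw [hcd]
    exact hNW
  have hNm0 : (0 : ℝ) ≤ N m := Nat.cast_nonneg _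
  have him0 : (0 : ℝ) ≤ i m := Nat.cast_nonneg _
  have hE2 : (d : ℝ) * ((1 - ε) * (r0 * S)) - (d + 1) * N m ≤ E := by
    have h1 : (1 - ε) * r0 * S ≤ c * S := mul_le_mul_of_nonneg_right hcr hS0
    have h2 : (d : ℝ) * ((1 - ε) * r0 * S) ≤ d * (c * S) := mul_le_mul_of_nonneg_left h1 hdR.le
    have h3 : (0 : ℝ) ≤ (d + 1) * i m := by positivity
    have h4 : (d : ℝ) * ((d.factorial : ℝ) ^ ((1 : ℝ) / d)) * ((NW : ℝ) ^ ((1 : ℝ) / d)) * S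
        = d * (c * S) := by rw [hc]; ring
    rw [h4] at hE
    nlinarith
  have hn1 : (0 : ℝ) < (n : ℝ) + 1 := by positivity
  set T : ℝ := (m : ℝ) * N m with hT
  have hT0 : 0 ≤ T := by positivity
  have hsmall : ((d : ℝ) + 1) * N m ≤ (d : ℝ) / (n + 1) * T * ε := by
    have h1 : ((n + 1 : ℝ) * (d + 1)) * N m ≤ (m * (d * ε)) * N m :=
      mul_le_mul_of_nonneg_right hmm hNm0
    have h2 : (d : ℝ) / (n + 1) * T * ε = ((m * (d * ε)) * N m) / (n + 1) := by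
      rw [hT]; field_simp
    rw [h2, le_div_iff₀ hn1]
    linarith
  set g : ℝ := 1 - x ^ (n + 1) - ε with hg
  have hx3 : 0 ≤ x ^ (n + 1) := by positivity
  have hg1 : g ≤ 1 := by rw [hg]; linarith
  have hrS : T * g / (n + 1) ≤ r0 * S := by
    rw [div_le_iff₀ hn1]
    linarith
  have hrS0 : 0 ≤ (r0 : ℝ) * S := by positivity
  have hfin : (d : ℝ) / (n + 1) * T * (g - ε) ≤ (d : ℝ) * ((1 - ε) * (r0 * S)) := by
    by_cases hg0 : 0 ≤ g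
    · have h1 : (d : ℝ) * ((1 - ε) * (T * g / (n + 1))) ≤ (d : ℝ) * ((1 - ε) * (r0 * S)) :=
        mul_le_mul_of_nonneg_left (mul_le_mul_of_nonneg_left hrS (by linarith)) hdR.le
      refine le_trans ?_ h1
      have h2 : (d : ℝ) * ((1 - ε) * (T * g / (n + 1)))
          = (d : ℝ) / (n + 1) * T * ((1 - ε) * g) := by field_simp
      rw [h2]
      apply mul_le_mul_of_nonneg_left _ (by positivity)
      nlinarith
    · push Not at hg0
      have h1 : (d : ℝ) / (n + 1) * T * (g - ε) ≤ 0 :=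
        mul_nonpos_of_nonneg_of_nonpos (by positivity) (by linarith)
      have h2 : 0 ≤ (d : ℝ) * ((1 - ε) * (r0 * S)) :=
        mul_nonneg hdR.le (mul_nonneg (by linarith) hrS0)
      linarith
  have e1 : (d : ℝ) / (n + 1) * T * (1 - x ^ (n + 1) - 3 * ε)
      = (d : ℝ) / (n + 1) * T * (g - ε) - (d : ℝ) / (n + 1) * T * ε := by
    rw [hg]; ring
  rw [e1]
  linarith

end Vale.Agent.P271.Grow
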