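import Vale.Agent.P271.Grow.Lead
import Vale.Agent.P271.Grow.Num
import Vale.Agent.P271.F507.Count
import Vale.Agent.P271.H177.Num

/-!
# P271 / GROW (b): the growth inequality in the form `H177.GrowProp`
-/

set_option linter.all false

open Finset Filter Topology

namespace Vale.Agent.P271.Grow

open Vale.Agent.P271.F507 Vale.Agent.P271.H177

/-- the families `i` to which the growth inequality applies -/
def GrowOk (n : ℕ) (N : ℕ → ℕ) (r1 : ℕ) (i : ℕ → ℕ) : Prop :=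
  (∀ M, i M ≤ N M) ∧ ∀ M s : ℕ, 0 < i M → 0 < N s →
    (i M : ℝ) ^ ((1 : ℝ) / n) + (N s : ℝ) ^ ((1 : ℝ) / n) ≤ (i (M + s + r1) : ℝ) ^ ((1 : ℝ) / n)

lemma sum_trunc_pow {n : ℕ} (hn : 0 < n) {a β : ℝ} (ha : 0 ≤ a) (hβ : 0 < β) (K : ℕ) :
    (n + 1 : ℝ) * β * ∑ j ∈ range K, (max 0 (a - β * (j + 1))) ^ n ≤
      a ^ (n + 1) - (max 0 (a - β * K)) ^ (n + 1) := by
  induction K with
  | zero => simp [ha]
  | succ K ih =>
    rw [Finset.sum_range_succ, mul_add]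
    push_cast
    have h1 : (n + 1 : ℝ) * β * (max 0 (a - β * (K + 1))) ^ n ≤
        (max 0 (a - β * K)) ^ (n + 1) - (max 0 (a - β * (K + 1))) ^ (n + 1) := by
      rcases le_or_gt (a - β * (K + 1)) 0 with h | h
      · rw [max_eq_left h]
        simp only [zero_pow hn.ne', mul_zero, zero_pow (Nat.succ_ne_zero n), sub_zero]
        positivity
      · have h2 : max 0 (a - β * (K + 1)) = a - β * (K + 1) := max_eq_right h.le
        have h3 : max 0 (a - β * K) = a - β * (K + 1) + β := by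
          rw [max_eq_right (by nlinarith)]
          ring
        rw [h2, h3]
        have := pow_succ_add_ge h.le hβ.le n
        linarith
    linarith

/-- lower linear bound for the roots of `N` -/
lemma root_lower {n : ℕ} (hn : 0 < n) {N : ℕ → ℕ} {v0 v : ℝ} (hv0 : 0 < v0) (hv : 0 < v)
    (hvn : v ^ n = v0)
    (hN : Tendsto (fun M : ℕ => (N M : ℝ) / (M : ℝ) ^ n) atTop (𝓝 v0)) {η : ℝ} (hη0 : 0 < η)
    (hη1 : η < 1) : ∃ C : ℝ, 0 ≤ C ∧ ∀ s : ℕ, (1 - η) * v * s - C ≤ (N s : ℝ) ^ ((1 : ℝ) / n) := by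
  have h1 : ∀ᶠ M : ℕ in atTop, (1 - η) * v0 < (N M : ℝ) / (M : ℝ) ^ n :=
    hN.eventually_const_lt (by nlinarith)
  obtain ⟨M1, hM1⟩ := eventually_atTop.1 (h1.and (eventually_ge_atTop 1))
  refine ⟨v * M1, by positivity, fun s => ?_⟩
  have hr0 : 0 ≤ (N s : ℝ) ^ ((1 : ℝ) / n) := by positivity
  by_cases hs : M1 ≤ s
  · obtain ⟨ha, hb⟩ := hM1 s hs
    have hsp : (0 : ℝ) < (s : ℝ) ^ n := by
      have : (0 : ℝ) < s := by exact_mod_cast hb
      positivity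
    rw [lt_div_iff₀ hsp] at ha
    have h2 : (1 - η) * v * s ≤ (N s : ℝ) ^ ((1 : ℝ) / n) := by
      have hη2 : 0 ≤ 1 - η := by linarith
      apply le_of_pow_le hn (by positivity) hr0
      rw [rpow_pow_inv hn (Nat.cast_nonneg _), mul_pow, mul_pow, hvn]
      refine le_trans ?_ ha.le
      apply mul_le_mul_of_nonneg_right _ hsp.le
      apply mul_le_mul_of_nonneg_right _ hv0.le
      exact pow_le_of_le_one (by linarith) (by linarith) hn.ne'
    have h3 : (0 : ℝ) ≤ v * M1 := by positivity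
    linarith
  · push Not at hs
    have hs' : (s : ℝ) ≤ M1 := by exact_mod_cast hs.le
    have h2 : (1 - η) * v * s ≤ 1 * v * M1 := by
      apply mul_le_mul _ hs' (Nat.cast_nonneg _) (by positivity)
      apply mul_le_mul_of_nonneg_right _ hv.le
      linarith
    linarith

/-- crude upper bound -/
lemma crude_upper {n : ℕ} {N : ℕ → ℕ} {v0 : ℝ}
    (hN : Tendsto (fun M : ℕ => (N M : ℝ) / (M : ℝ) ^ n) atTop (𝓝 v0)) :
    ∃ A : ℝ, 0 ≤ A ∧ ∀ T : ℕ, 1 ≤ T → ∀ M : ℕ, M ≤ T → (N M : ℝ) ≤ A * (T : ℝ) ^ n := by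
  obtain ⟨B, hB⟩ := hN.bddAbove_range
  have hB' : ∀ M : ℕ, (N M : ℝ) / (M : ℝ) ^ n ≤ B := fun M => hB ⟨M, rfl⟩
  refine ⟨|B| + N 0, by positivity, fun T hT M hM => ?_⟩
  have hTR : (1 : ℝ) ≤ T := by exact_mod_cast hT
  have hT1 : (1 : ℝ) ≤ (T : ℝ) ^ n := one_le_pow₀ hTR
  rcases Nat.eq_zero_or_pos M with rfl | hMpos
  · have h1 : (0 : ℝ) ≤ |B| * (T : ℝ) ^ n := by positivity
    have h2 : (N 0 : ℝ) * 1 ≤ N 0 * (T : ℝ) ^ n := mul_le_mul_of_nonneg_left hT1 (Nat.cast_nonneg _)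
    rw [add_mul]
    linarith
  · have hMp : (0 : ℝ) < (M : ℝ) ^ n := by
      have : (0 : ℝ) < M := by exact_mod_cast hMpos
      positivity
    have h1 := hB' M
    rw [div_le_iff₀ hMp] at h1
    have h2 : (M : ℝ) ^ n ≤ (T : ℝ) ^ n := by
      have : (M : ℝ) ≤ T := by exact_mod_cast hM
      gcongr
    have h3 : B * (M : ℝ) ^ n ≤ |B| * (T : ℝ) ^ n :=
      mul_le_mul (le_abs_self B) h2 hMp.le (abs_nonneg _)
    have h4 : (0 : ℝ) ≤ N 0 * (T : ℝ) ^ n := by positivity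
    rw [add_mul]
    linarith

/-- upper bound for the sum of `i` -/
lemma sum_i_le {n : ℕ} (hn : 0 < n) {N : ℕ → ℕ} {r1 r2 : ℕ} {v η C A : ℝ} (hv : 0 < v)
    (hr2 : r1 ≤ r2) (hNs : ∀ s, r2 ≤ s + r1 → 0 < N s)
    (hη0 : 0 < η) (hη1 : η < 1) (hC0 : 0 ≤ C)
    (hC : ∀ s : ℕ, (1 - η) * v * s - C ≤ (N s : ℝ) ^ ((1 : ℝ) / n)) (hA0 : 0 ≤ A)
    {ρ : ℕ} (hρ : 0 < ρ) {T : ℕ} (hA : ∀ M : ℕ, M ≤ T → (N M : ℝ) ≤ A * (T : ℝ) ^ n)
    {i : ℕ → ℕ} (hi : GrowOk n N r1 i) :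
    (n + 1 : ℝ) * ((1 - η) * v) *
      (ρ * ∑ j ∈ range (T / ρ), ((i (T - (j + 1) * ρ) : ℕ) : ℝ)) ≤
      ((i T : ℝ) ^ ((1 : ℝ) / n) + (C + (1 - η) * v * r1)) ^ (n + 1)
        + (n + 1 : ℝ) * ((1 - η) * v) * (ρ * (r2 * (A * (T : ℝ) ^ n))) := by
  set y : ℝ := (i T : ℝ) ^ ((1 : ℝ) / n) with hy
  have hy0 : 0 ≤ y := by positivity
  have hη2 : 0 < 1 - η := by linarith
  set a : ℝ := y + (C + (1 - η) * v * r1) with ha
  have ha0 : 0 ≤ a := by positivity
  set β : ℝ := (1 - η) * v * ρ with hβ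
  have hρR : (0 : ℝ) < ρ := by exact_mod_cast hρ
  have hβ0 : 0 < β := by positivity
  have hterm : ∀ j ∈ range (T / ρ), ((i (T - (j + 1) * ρ) : ℕ) : ℝ) ≤
      (max 0 (a - β * (j + 1))) ^ n + (if j < r2 then A * (T : ℝ) ^ n else 0) := by
    intro j hj
    have hjT : (j + 1) * ρ ≤ T := by
      have h1 : j + 1 ≤ T / ρ := Finset.mem_range.1 hj
      exact (Nat.le_div_iff_mul_le hρ).1 h1
    split_ifs with hjr
    · have h1 : ((i (T - (j + 1) * ρ) : ℕ) : ℝ) ≤ ((N (T - (j + 1) * ρ) : ℕ) : ℝ) := by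
        exact_mod_cast hi.1 _
      have h2 := hA (T - (j + 1) * ρ) (Nat.sub_le _ _)
      have h3 : (0 : ℝ) ≤ (max 0 (a - β * (j + 1))) ^ n := by positivity
      linarith
    · rw [add_zero]
      rcases Nat.eq_zero_or_pos (i (T - (j + 1) * ρ)) with h0 | h0
      · rw [h0, Nat.cast_zero]
        positivity
      · have hrr : r2 ≤ (j + 1) * ρ := by
          have : r2 ≤ j + 1 := by omega
          calc r2 ≤ j + 1 := this
            _ ≤ (j + 1) * ρ := Nat.le_mul_of_pos_right _ hρ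
        have hr : r1 ≤ (j + 1) * ρ := hr2.trans hrr
        have h1 := hi.2 (T - (j + 1) * ρ) ((j + 1) * ρ - r1) h0 (hNs _ (by omega))
        have e1 : T - (j + 1) * ρ + ((j + 1) * ρ - r1) + r1 = T := by omega
        rw [e1] at h1
        have h2 := hC ((j + 1) * ρ - r1)
        have e2 : (((j + 1) * ρ - r1 : ℕ) : ℝ) = (j + 1) * ρ - r1 := by
          rw [Nat.cast_sub hr]
          push_cast
          ring
        rw [e2] at h2
        have h3 : ((i (T - (j + 1) * ρ) : ℕ) : ℝ) ^ ((1 : ℝ) / n) ≤ a - β * (j + 1) := by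
          have e3 : a - β * (j + 1) = y - ((1 - η) * v * ((j + 1) * ρ - r1) - C) := by
            rw [ha, hβ]; ring
          rw [e3]
          linarith
        have h4 : ((i (T - (j + 1) * ρ) : ℕ) : ℝ)
            = (((i (T - (j + 1) * ρ) : ℕ) : ℝ) ^ ((1 : ℝ) / n)) ^ n :=
          (rpow_pow_inv hn (Nat.cast_nonneg _)).symm
        rw [h4]
        exact pow_le_pow_left₀ (by positivity) (h3.trans (le_max_right _ _)) n
  have hsum := Finset.sum_le_sum hterm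
  rw [Finset.sum_add_distrib] at hsum
  have h5 : ∑ j ∈ range (T / ρ), (if j < r2 then A * (T : ℝ) ^ n else 0)
      ≤ r2 * (A * (T : ℝ) ^ n) := by
    rw [← Finset.sum_filter, Finset.sum_const, nsmul_eq_mul]
    apply mul_le_mul_of_nonneg_right _ (by positivity)
    have : (Finset.filter (fun j => j < r2) (range (T / ρ))).card ≤ (range r2).card := by
      apply Finset.card_le_card
      intro j hj
      exact Finset.mem_range.2 (Finset.mem_filter.1 hj).2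
    rw [Finset.card_range] at this
    exact_mod_cast this
  have h6 := sum_trunc_pow hn ha0 hβ0 (T / ρ)
  have h7 : 0 ≤ (max 0 (a - β * ((T / ρ : ℕ) : ℝ))) ^ (n + 1) := by positivity
  set Sg1 : ℝ := ∑ j ∈ range (T / ρ), (max 0 (a - β * (j + 1))) ^ n with hSg1
  have h8 : (n + 1 : ℝ) * β * Sg1 ≤ a ^ (n + 1) := by linarith
  have h9 : ∑ j ∈ range (T / ρ), ((i (T - (j + 1) * ρ) : ℕ) : ℝ) ≤ Sg1 + r2 * (A * (T : ℝ) ^ n) := by
    linarith
  calc (n + 1 : ℝ) * ((1 - η) * v) *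
      (ρ * ∑ j ∈ range (T / ρ), ((i (T - (j + 1) * ρ) : ℕ) : ℝ))
      ≤ (n + 1 : ℝ) * ((1 - η) * v) * (ρ * (Sg1 + r2 * (A * (T : ℝ) ^ n))) :=
        mul_le_mul_of_nonneg_left (mul_le_mul_of_nonneg_left h9 hρR.le) (by positivity)
    _ = (n + 1 : ℝ) * β * Sg1 + (n + 1 : ℝ) * ((1 - η) * v) * (ρ * (r2 * (A * (T : ℝ) ^ n))) := by
        rw [hβ]; ring
    _ ≤ _ := by linarith

lemma combine {n : ℕ} {η v v0 S1 S2 z TN TT E ε : ℝ} (hη0 : 0 < η) (hη1 : η < 1 / 2)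
    (hv : 0 < v) (hv0 : 0 < v0) (hTN : 0 ≤ TN) (hTT : 0 ≤ TT) (hz0 : 0 ≤ z) (hz1 : z ≤ 1)
    (h1 : TN ≤ (1 + η) * v0 * TT) (h2 : (1 - η) * v0 * TT ≤ (n + 1) * S1)
    (h3 : (n + 1 : ℝ) * ((1 - η) * v) * S2 ≤ v * ((1 + η) * (z * TN)) + (n + 1) * ((1 - η) * v) * E)
    (h4 : E ≤ ε / 2 * TT) (hηε : 12 * η * v0 ≤ ε / 2) :
    TN * (1 - z) / (n + 1) - ε * TT ≤ S1 - S2 := by
  have hn1 : (0 : ℝ) < (n : ℝ) + 1 := by positivity
  have hη2 : 0 < 1 - η := by linarith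
  have h5 : (n + 1 : ℝ) * (S2 - E) * (1 - η) ≤ (1 + η) * (z * TN) := by
    have h6 : v * ((n + 1 : ℝ) * (S2 - E) * (1 - η)) ≤ v * ((1 + η) * (z * TN)) := by
      have e : v * ((n + 1 : ℝ) * (S2 - E) * (1 - η))
          = (n + 1 : ℝ) * ((1 - η) * v) * S2 - (n + 1) * ((1 - η) * v) * E := by ring
      rw [e]; linarith
    exact le_of_mul_le_mul_left h6 hv
  have hzT : 0 ≤ z * TN := by positivity
  have hzT1 : z * TN ≤ TN := mul_le_of_le_one_left hTN hz1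
  have h7 : (n + 1 : ℝ) * (S2 - E) ≤ (1 + 4 * η) * (z * TN) := by
    have h8 : (1 + η) * (z * TN) ≤ (1 + 4 * η) * (z * TN) * (1 - η) := by
      have e : (1 + 4 * η) * (z * TN) * (1 - η) - (1 + η) * (z * TN)
          = 2 * η * (1 - 2 * η) * (z * TN) := by ring
      have : 0 ≤ 2 * η * (1 - 2 * η) * (z * TN) :=
        mul_nonneg (mul_nonneg (by linarith) (by linarith)) hzT
      linarith
    exact le_of_mul_le_mul_right (h5.trans h8) hη2
  have h8 : TN ≤ 3 / 2 * (v0 * TT) := by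
    refine h1.trans ?_
    have : 0 ≤ v0 * TT := by positivity
    nlinarith
  have h9 : (n + 1 : ℝ) * (S1 - S2 + E) ≥ TN * (1 - z) - 12 * η * (v0 * TT) := by
    have hx : 0 ≤ v0 * TT := by positivity
    have h10 : 4 * η * (z * TN) ≤ 4 * η * (3 / 2 * (v0 * TT)) :=
      mul_le_mul_of_nonneg_left (hzT1.trans h8) (by positivity)
    have h11 : 0 ≤ η * (v0 * TT) := by positivity
    nlinarith
  have h10 : 12 * η * (v0 * TT) ≤ ε / 2 * TT := by
    have := mul_le_mul_of_nonneg_right hηε hTT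
    linarith
  have hεT : 0 ≤ ε / 2 * TT := le_trans (by positivity) h10
  rw [div_sub' hn1.ne', div_le_iff₀ hn1]
  have hn1' : (1 : ℝ) ≤ (n : ℝ) + 1 := by
    have : (0 : ℝ) ≤ n := Nat.cast_nonneg n
    linarith
  have h12 : (n + 1 : ℝ) * E ≤ (n + 1) * (ε / 2 * TT) := mul_le_mul_of_nonneg_left h4 hn1.le
  have h13 : ε / 2 * TT ≤ (n + 1) * (ε / 2 * TT) := le_mul_of_one_le_left hεT hn1'
  nlinarith

/-- **GROW**: the growth inequality. -/
theorem growProp {n : ℕ} (hn : 0 < n) {N : ℕ → ℕ} {v0 : ℝ} (hv0 : 0 < v0)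
    (hN : Tendsto (fun M : ℕ => (N M : ℝ) / (M : ℝ) ^ n) atTop (𝓝 v0)) (r1 : ℕ) :
    GrowProp n N (GrowOk n N r1) := by
  intro ρ hρ ε hε
  set v : ℝ := v0 ^ ((1 : ℝ) / n) with hv
  have hvpos : 0 < v := Real.rpow_pos_of_pos hv0 _
  have hvn : v ^ n = v0 := rpow_pow_inv hn hv0.le
  set η : ℝ := min (1 / 4) (ε / (24 * v0)) with hη
  have hη0 : 0 < η := by
    rw [hη]
    exact lt_min (by norm_num) (by positivity)
  have hη1 : η ≤ 1 / 4 := min_le_left _ _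
  have hηε : 12 * η * v0 ≤ ε / 2 := by
    have h1 : η ≤ ε / (24 * v0) := min_le_right _ _
    rw [le_div_iff₀ (by positivity)] at h1
    linarith
  obtain ⟨C, hC0, hC⟩ := root_lower hn hv0 hvpos hvn hN hη0 (by linarith)
  obtain ⟨A, hA0, hA⟩ := crude_upper hN
  obtain ⟨m0, hm0⟩ := sum_N_ge hn hv0 hN hρ hη0 (by linarith)
  have h2 : ∀ᶠ M : ℕ in atTop, (N M : ℝ) / (M : ℝ) ^ n < (1 + η) * v0 :=
    hN.eventually_lt_const (by nlinarith)
  obtain ⟨M1, hM1⟩ := eventually_atTop.1 h2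
  have h3 : ∀ᶠ M : ℕ in atTop, 0 < (N M : ℝ) / (M : ℝ) ^ n := hN.eventually_const_lt hv0
  obtain ⟨s0, hs0⟩ := eventually_atTop.1 h3
  have hNs : ∀ s, r1 + s0 ≤ s + r1 → 0 < N s := by
    intro s hs
    have h4 := hs0 s (by omega)
    rcases Nat.eq_zero_or_pos (N s) with h0 | h0
    · rw [h0, Nat.cast_zero, zero_div] at h4
      exact absurd h4 (lt_irrefl _)
    · exact h0
  set r2 : ℕ := r1 + s0 with hr2
  -- error terms
  set C2 : ℝ := C + (1 - η) * v * r1 with hC2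
  have hη2 : 0 < 1 - η := by linarith
  have hC20 : 0 ≤ C2 := by positivity
  set c : ℝ := (n + 1 : ℝ) * ((1 - η) * v) with hc
  have hc0 : 0 < c := by positivity
  -- `E T = ρ r2 A T ^ n + (n+1) C2 (2 v T + C2) ^ n / c`
  set D1 : ℝ := ρ * (r2 * A) + (n + 1) * C2 * (2 * v + C2) ^ n / c with hD1
  have hD10 : 0 ≤ D1 := by positivity
  obtain ⟨T1, hT1⟩ := exists_nat_ge (2 * D1 / ε)
  refine ⟨max (max m0 M1) (max T1 1), fun T hT i hi => ?_⟩
  have hTm0 : m0 ≤ T := le_trans (le_trans (le_max_left _ _) (le_max_left _ _)) hT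
  have hTM1 : M1 ≤ T := le_trans (le_trans (le_max_right _ _) (le_max_left _ _)) hT
  have hTT1 : T1 ≤ T := le_trans (le_trans (le_max_left _ _) (le_max_right _ _)) hT
  have hT1' : 1 ≤ T := le_trans (le_trans (le_max_right _ _) (le_max_right _ _)) hT
  have hTR : (1 : ℝ) ≤ T := by exact_mod_cast hT1'
  have hTpos : (0 : ℝ) < T := by linarith
  have hTn : (0 : ℝ) < (T : ℝ) ^ n := by positivity
  have hNT : (N T : ℝ) ≤ (1 + η) * v0 * (T : ℝ) ^ n := by
    have := hM1 T hTM1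
    rw [div_lt_iff₀ hTn] at this
    exact this.le
  have hNT0 : (0 : ℝ) ≤ N T := Nat.cast_nonneg _
  have hiT0 : (0 : ℝ) ≤ i T := Nat.cast_nonneg _
  have hiN : (i T : ℝ) ≤ N T := by exact_mod_cast hi.1 T
  set Y : ℝ := (N T : ℝ) ^ ((1 : ℝ) / n) with hY
  have hY0 : 0 ≤ Y := by positivity
  have hYn : Y ^ n = N T := rpow_pow_inv hn hNT0
  have hYle : Y ≤ (1 + η) * v * T := by
    apply le_of_pow_le hn hY0 (by positivity)
    rw [hYn, mul_pow, mul_pow, hvn]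
    refine le_trans hNT ?_
    apply mul_le_mul_of_nonneg_right _ hTn.le
    apply mul_le_mul_of_nonneg_right _ hv0.le
    exact le_self_pow₀ (by linarith) hn.ne'
  set y : ℝ := (i T : ℝ) ^ ((1 : ℝ) / n) with hy
  have hy0 : 0 ≤ y := by positivity
  have hyY : y ≤ Y := Real.rpow_le_rpow hiT0 hiN (by positivity)
  have hy2 : y ≤ 2 * v * T := by
    refine hyY.trans (hYle.trans ?_)
    apply mul_le_mul_of_nonneg_right _ hTpos.le
    apply mul_le_mul_of_nonneg_right _ hvpos.le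
    linarith
  -- `z`
  set z : ℝ := ((i T : ℝ) / N T) ^ ((1 : ℝ) + 1 / n) with hz
  have hz0 : 0 ≤ z := by positivity
  have hz1 : z ≤ 1 := by
    apply Real.rpow_le_one (by positivity) _ (by positivity)
    rcases hNT0.eq_or_lt with h | h
    · rw [← h, div_zero]; exact zero_le_one
    · rw [div_le_one h]; exact hiN
  have hypow : y ^ (n + 1) ≤ v * ((1 + η) * (z * (T * N T))) := by
    rcases hNT0.eq_or_lt with h | h
    · have hi0 : (i T : ℝ) = 0 := le_antisymm (by rw [h]; exact hiN) hiT0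
      have hnR : (1 : ℝ) / n ≠ 0 := by positivity
      have : y = 0 := by rw [hy, hi0, Real.zero_rpow hnR]
      rw [this, zero_pow (Nat.succ_ne_zero n)]
      positivity
    · have hq0 : (0 : ℝ) ≤ (i T : ℝ) / N T := by positivity
      have hnR : (0 : ℝ) < n := by exact_mod_cast hn
      have h5 : y ^ (n + 1) = z * (N T * Y) := by
        have e1 : y ^ (n + 1) = (i T : ℝ) ^ ((1 : ℝ) + 1 / n) := by
          rw [hy, ← Real.rpow_natCast, ← Real.rpow_mul hiT0]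
          congr 1
          push_cast
          field_simp
        have e2 : (N T : ℝ) * Y = (N T : ℝ) ^ ((1 : ℝ) + 1 / n) := by
          rw [hY, Real.rpow_add h, Real.rpow_one]
        rw [e1, e2, hz, ← Real.mul_rpow hq0 hNT0]
        congr 1
        field_simp
      rw [h5]
      calc z * (N T * Y) ≤ z * (N T * ((1 + η) * v * T)) :=
            mul_le_mul_of_nonneg_left (mul_le_mul_of_nonneg_left hYle hNT0) hz0
        _ = _ := by ring
  have hS := hm0 T hTm0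
  have hI := sum_i_le (r2 := r2) hn hvpos (by omega) hNs hη0 (by linarith) hC0 hC hA0 hρ
    (T := T) (hA T hT1') hi
  rw [← hC2, ← hc, ← hy] at hI
  -- the error
  have herr : (y + C2) ^ (n + 1) ≤ y ^ (n + 1) + (n + 1) * C2 * (2 * v + C2) ^ n * (T : ℝ) ^ n := by
    have h5 := pow_succ_add_le hy0 hC20 n
    have h6 : (y + C2) ^ n ≤ ((2 * v + C2) * T) ^ n := by
      apply pow_le_pow_left₀ (by positivity)
      have : C2 ≤ C2 * T := le_mul_of_one_le_right hC20 hTR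
      linarith
    rw [mul_pow] at h6
    have h7 : (n + 1 : ℝ) * C2 * (y + C2) ^ n ≤ (n + 1) * C2 * ((2 * v + C2) ^ n * (T : ℝ) ^ n) :=
      mul_le_mul_of_nonneg_left h6 (by positivity)
    linarith
  set S1 : ℝ := ρ * ∑ j ∈ range (T / ρ), ((N (T - (j + 1) * ρ) : ℕ) : ℝ) with hS1
  set S2 : ℝ := ρ * ∑ j ∈ range (T / ρ), ((i (T - (j + 1) * ρ) : ℕ) : ℝ) with hS2
  have hSS : (ρ : ℝ) * ∑ j ∈ range (T / ρ),
      (((N (T - (j + 1) * ρ) : ℕ) : ℝ) - ((i (T - (j + 1) * ρ) : ℕ) : ℝ)) = S1 - S2 := by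
    rw [Finset.sum_sub_distrib, mul_sub, hS1, hS2]
  rw [hSS]
  have hfinal := combine (n := n) (η := η) (v := v) (v0 := v0) (S1 := S1) (S2 := S2) (z := z)
    (TN := (T : ℝ) * N T) (TT := (T : ℝ) ^ (n + 1)) (E := D1 * (T : ℝ) ^ n) (ε := ε) hη0
    (by linarith) hvpos hv0 (by positivity) (by positivity) hz0 hz1 ?_ hS ?_ ?_ hηε
  · exact hfinal
  · have := mul_le_mul_of_nonneg_left hNT hTpos.le
    calc (T : ℝ) * N T ≤ T * ((1 + η) * v0 * (T : ℝ) ^ n) := this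
      _ = _ := by rw [pow_succ]; ring
  · rw [← hc]
    have e1 : c * (D1 * (T : ℝ) ^ n) = c * (ρ * (r2 * (A * (T : ℝ) ^ n)))
        + (n + 1) * C2 * (2 * v + C2) ^ n * (T : ℝ) ^ n := by
      rw [hD1]; field_simp
    rw [e1]
    linarith
  · have h5 : 2 * D1 / ε ≤ T := hT1.trans (by exact_mod_cast hTT1)
    rw [div_le_iff₀ hε] at h5
    rw [pow_succ]
    have h6 : D1 ≤ ε / 2 * T := by linarith
    calc D1 * (T : ℝ) ^ n ≤ (ε / 2 * T) * (T : ℝ) ^ n := mul_le_mul_of_nonneg_right h6 hTn.le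
      _ = _ := by ring

theorem growOk_zero (n : ℕ) (N : ℕ → ℕ) (r1 : ℕ) : GrowOk n N r1 (fun _ => 0) :=
  ⟨fun _ => Nat.zero_le _, fun _ _ h => absurd h (lt_irrefl 0)⟩

theorem growOk_le {n : ℕ} {N : ℕ → ℕ} {r1 : ℕ} : ∀ i, GrowOk n N r1 i → ∀ M, i M ≤ N M :=
  fun _ h => h.1

variable {k : Type*} [Field k]

/-- a graded family of subspaces stable under multiplication by the graded linear series `V` is in
the class `GrowOk` -/
theorem growOk_ring {A : Type*} [CommRing A] [Algebra k A] {n : ℕ} (hn : 0 < n)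
    (τ : A →ₐ[k] MvPowerSeries (Fin n) k) (V I : ℕ → Submodule k A)
    [∀ M, FiniteDimensional k (V M)] (hIV : ∀ M, I M ≤ V M)
    (hτ : ∀ M, ∀ s ∈ V M, τ s = 0 → s = 0)
    (hmul : ∀ M M' : ℕ, ∀ g ∈ V M', ∀ s ∈ I M, g * s ∈ I (M + M'))
    (r1 : ℕ) (hcube : ∀ ε : Fin n → ℕ, (∀ j, ε j ≤ 1) → ∃ g ∈ V r1, H207.IsLead1 (τ g) ε) :
    GrowOk n (fun M => Module.finrank k (V M)) r1 (fun M => Module.finrank k (I M)) := by
  have hfinI : ∀ M, FiniteDimensional k (I M) := fun M =>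
    Submodule.finiteDimensional_of_le (hIV M)
  have hdim : ∀ (W : Submodule k A) (M : ℕ), W ≤ V M →
      Module.finrank k (W.map τ.toLinearMap) = Module.finrank k W := by
    intro W M hW
    have hinj : Function.Injective (τ.toLinearMap.comp W.subtype) := by
      rw [injective_iff_map_eq_zero]
      intro x hx
      exact Subtype.ext (hτ M x (hW x.2) hx)
    have h1 := LinearMap.finrank_range_of_inj hinj
    rw [LinearMap.range_comp, Submodule.range_subtype] at h1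
    exact h1
  refine ⟨fun M => Submodule.finrank_mono (hIV M), fun M s hM hs => ?_⟩
  have hne : ∀ W : Submodule k (MvPowerSeries (Fin n) k), 0 < Module.finrank k W → W ≠ ⊥ := by
    intro W hW h0
    rw [h0, finrank_bot] at hW
    exact lt_irrefl 0 hW
  have h := grow_step hn (fun M => (I M).map τ.toLinearMap) (fun M => (V M).map τ.toLinearMap)
    (by
      rintro M M' _ ⟨g, hg, rfl⟩ _ ⟨f, hf, rfl⟩
      exact ⟨g * f, hmul M M' g hg f hf, map_mul τ g f⟩) s r1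
    (by
      intro ε hε
      obtain ⟨g, hg, hl⟩ := hcube ε hε
      exact ⟨τ g, ⟨g, hg, rfl⟩, hl⟩)
    (hne _ (by rw [hdim (V s) s le_rfl]; exact hs))
    (M := M) (hne _ (by rw [hdim (I M) M (hIV M)]; exact hM))
  simp only [hdim (V s) s le_rfl, hdim (I M) M (hIV M), hdim (I (M + (s + r1))) _ (hIV _)] at h
  rw [← add_assoc] at h
  exact h

end Vale.Agent.P271.Grow
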