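import Vale.Agent.P271.H207.CountLead

/-!
# P271 / GROW (a): growth of an ideal in a graded linear series

`U M ⊆ k[[x_1, …, x_n]]` finite dimensional, stable under multiplication by the graded linear
series `G M`, `{0,1}^n` among the leading exponents of `G r₁`.  Then
`(dim U_M)^{1/n} + (dim G_{r₀})^{1/n} ≤ (dim U_{M+r₀+r₁})^{1/n}` if `U_M ≠ 0`, and the sum of
`dim U_M` over an arithmetic progression is bounded.
-/

set_option linter.all false

open Finset

namespace Vale.Agent.P271.Grow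

open Vale.Agent.P271.F507 Vale.Agent.P271.H207

variable {k : Type*} [Field k] {n : ℕ}

theorem isLead1_mul {f g : MvPowerSeries (Fin n) k} {ξ η : Fin n → ℕ} (hg : IsLead1 g η)
    (hf : IsLead1 f ξ) : IsLead1 (g * f) (η + ξ) := by
  have h := IsLead.mul hg (isLead_vec1.2 hf)
  exact isLead_vec1.1 h

theorem grow_step (hn : 0 < n) (U G : ℕ → Submodule k (MvPowerSeries (Fin n) k))
    [∀ M, FiniteDimensional k (U M)] [∀ M, FiniteDimensional k (G M)]
    (hmul : ∀ M M' : ℕ, ∀ g ∈ G M', ∀ f ∈ U M, g * f ∈ U (M + M'))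
    (r0 r1 : ℕ) (hcube : ∀ ε : Fin n → ℕ, (∀ j, ε j ≤ 1) → ∃ g ∈ G r1, IsLead1 g ε)
    (hG : G r0 ≠ ⊥) {M : ℕ} (hU : U M ≠ ⊥) :
    ((Module.finrank k (U M) : ℝ) ^ ((1 : ℝ) / n)) +
      ((Module.finrank k (G r0) : ℝ) ^ ((1 : ℝ) / n)) ≤
      ((Module.finrank k (U (M + (r0 + r1))) : ℝ) ^ ((1 : ℝ) / n)) := by
  have hne : ∀ (W : Submodule k (MvPowerSeries (Fin n) k)) [FiniteDimensional k W], W ≠ ⊥ →
      (leads1_finite W).toFinset.Nonempty := by
    intro W _ hW
    obtain ⟨g, hg, hg0⟩ := Submodule.exists_mem_ne_zero_of_ne_bot hW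
    obtain ⟨η, hη⟩ := exists_isLead1 hg0
    exact ⟨η, by simpa using ⟨g, hg, hη⟩⟩
  have h := discrete_bm (A := (leads1_finite (U M)).toFinset) (B := (leads1_finite (G r0)).toFinset)
    (C := (leads1_finite (U (M + (r0 + r1)))).toFinset) hn (hne _ hU) (hne _ hG) (by
      intro ξ hξ η hη ε hε
      obtain ⟨f, hf, hfl⟩ := (Set.Finite.mem_toFinset _).1 hξ
      obtain ⟨g, hg, hgl⟩ := (Set.Finite.mem_toFinset _).1 hη
      obtain ⟨g', hg', hgl'⟩ := hcube ε hε
      rw [Set.Finite.mem_toFinset]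
      refine ⟨g' * (g * f), ?_, ?_⟩
      · have h3 := hmul (M + r0) r1 g' hg' _ (hmul M r0 g hg f hf)
        rwa [add_assoc] at h3
      · have h4 : ξ + η + ε = ε + (η + ξ) := by rw [add_comm ξ η, add_comm ε]
        rw [h4]
        exact isLead1_mul hgl' (isLead1_mul hgl hfl))
  rw [card_leads1, card_leads1, card_leads1] at h
  exact h

/-- **Growth of an ideal**, summed form. -/
theorem grow_sum (hn : 0 < n) (U G : ℕ → Submodule k (MvPowerSeries (Fin n) k))
    [∀ M, FiniteDimensional k (U M)] [∀ M, FiniteDimensional k (G M)]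
    (hmul : ∀ M M' : ℕ, ∀ g ∈ G M', ∀ f ∈ U M, g * f ∈ U (M + M'))
    (r0 r1 : ℕ) (hcube : ∀ ε : Fin n → ℕ, (∀ j, ε j ≤ 1) → ∃ g ∈ G r1, IsLead1 g ε)
    (hG : G r0 ≠ ⊥) (K m : ℕ) (hK : K * (r0 + r1) ≤ m) :
    (n + 1 : ℝ) * ((Module.finrank k (G r0) : ℝ) ^ ((1 : ℝ) / n)) *
      ∑ j ∈ range K, (Module.finrank k (U (m - (j + 1) * (r0 + r1))) : ℝ) ≤
      ((Module.finrank k (U m) : ℝ) ^ ((1 : ℝ) / n)) ^ (n + 1) := by
  have hnR : (0 : ℝ) < n := by exact_mod_cast hn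
  refine telescope (d := n) (fun M => (Module.finrank k (U M) : ℝ))
    (fun M => (Module.finrank k (U M) : ℝ) ^ ((1 : ℝ) / n)) (fun M => by positivity)
    (fun M => ?_) hn (by positivity) (ρ := r0 + r1) (fun M hM => ?_) K m hK
  · rw [← Real.rpow_natCast, ← Real.rpow_mul (by positivity)]
    rw [one_div, inv_mul_cancel₀ hnR.ne', Real.rpow_one]
  · refine grow_step hn U G hmul r0 r1 hcube hG ?_
    intro h
    rw [h] at hM
    simp at hM

/-- **Growth of an ideal** in a graded linear series `V` of functions on which the Taylor expansion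
`τ` is injective. -/
theorem grow_ring {A : Type*} [CommRing A] [Algebra k A] (hn : 0 < n)
    (τ : A →ₐ[k] MvPowerSeries (Fin n) k) (V I : ℕ → Submodule k A)
    [∀ M, FiniteDimensional k (V M)] (hIV : ∀ M, I M ≤ V M)
    (hτ : ∀ M, ∀ s ∈ V M, τ s = 0 → s = 0)
    (hmul : ∀ M M' : ℕ, ∀ g ∈ V M', ∀ s ∈ I M, g * s ∈ I (M + M'))
    (r0 r1 : ℕ) (hcube : ∀ ε : Fin n → ℕ, (∀ j, ε j ≤ 1) → ∃ g ∈ V r1, IsLead1 (τ g) ε)
    (hV : V r0 ≠ ⊥) (K m : ℕ) (hK : K * (r0 + r1) ≤ m) :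
    (n + 1 : ℝ) * ((Module.finrank k (V r0) : ℝ) ^ ((1 : ℝ) / n)) *
      ∑ j ∈ range K, (Module.finrank k (I (m - (j + 1) * (r0 + r1))) : ℝ) ≤
      ((Module.finrank k (I m) : ℝ) ^ ((1 : ℝ) / n)) ^ (n + 1) := by
  have hfinI : ∀ M, FiniteDimensional k (I M) := fun M =>
    Submodule.finiteDimensional_of_le (hIV M)
  have hdim : ∀ (W : Submodule k A) (M : ℕ), W ≤ V M →
      Module.finrank k (W.map τ.toLinearMap) = Module.finrank k W := by
    intro W M hW
    have hinj : Function.Injective (τ.toLinearMap.comp W.subtype) := by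
      rw [injective_iff_map_eq_zero]
      intro x hx
      exact Subtype.ext (hτ M x (hW x.2) hx)
    have h1 := LinearMap.finrank_range_of_inj hinj
    rw [LinearMap.range_comp, Submodule.range_subtype] at h1
    exact h1
  have h := grow_sum hn (fun M => (I M).map τ.toLinearMap) (fun M => (V M).map τ.toLinearMap)
    (by
      rintro M M' _ ⟨g, hg, rfl⟩ _ ⟨f, hf, rfl⟩
      exact ⟨g * f, hmul M M' g hg f hf, map_mul τ g f⟩) r0 r1
    (by
      intro ε hε
      obtain ⟨g, hg, hl⟩ := hcube ε hε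
      exact ⟨τ g, ⟨g, hg, rfl⟩, hl⟩)
    (by
      intro h0
      apply hV
      rw [Submodule.eq_bot_iff]
      intro x hx
      have h1 : τ x ∈ (V r0).map τ.toLinearMap := ⟨x, hx, rfl⟩
      have h2 : (V r0).map τ.toLinearMap = ⊥ := h0
      rw [h2, Submodule.mem_bot] at h1
      exact hτ r0 x hx h1) K m hK
  simp only [hdim (V r0) r0 le_rfl, hdim (I m) m (hIV m)] at h
  refine le_trans (le_of_eq ?_) h
  congr 1
  refine Finset.sum_congr rfl (fun j _ => ?_)
  rw [hdim _ _ (hIV _)]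

end Vale.Agent.P271.Grow
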